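import Vale.Agent.P358.Bounds
import Vale.Agent.P358.Induction

/-!
The classical capacity of the generalized amplitude-damping channel.
-/

namespace Vale.Agent.Results.P358.GADCapacity

open Vale.Agent.P358

/-- Additivity of the Holevo capacity and the classical capacity of every generalized
amplitude-damping channel. -/
theorem result :
    ∀ γ ν : ℝ, γ ∈ Set.Icc (0 : ℝ) 1 → ν ∈ Set.Icc (0 : ℝ) 1 →
      (∀ n : ℕ, 1 ≤ n → chi γ ν n = n * chi γ ν 1) ∧ capacity γ ν = chi γ ν 1 ∧
        chi γ ν 1 = capacityValue γ ν :=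
  fun _ _ hγ hν => gad_capacity_of_siteBound hγ hν fun _ _ hρ => eta_gadPow_ge hγ hν hρ

end Vale.Agent.Results.P358.GADCapacity
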